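import Vale.Agent.P174.Words

/-!
P174: systems in which every unknown occurs at most twice, or every equation has at most two
occurrences of unknowns.
-/

namespace Vale.Agent.P174

universe u

/-- The equation `y g y h = 1` has a solution in a permutation group containing `H`. -/
lemma exists_square_root {H : Type u} [Group H] (g h : H) :
    ∃ (H' : Type u) (_ : Group H') (ψ : H →* H') (y : H'),
      Function.Injective ψ ∧ y * ψ g * y * ψ h = 1 := by
  let ψ : H →* Equiv.Perm (H × Bool) :=
    { toFun := fun a => Equiv.prodCongr (Equiv.mulLeft a) (Equiv.refl Bool)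
      map_one' := by ext p <;> simp
      map_mul' := fun a b => by ext p <;> simp [mul_assoc] }
  let y : Equiv.Perm (H × Bool) :=
    { toFun := fun p => ((if p.2 then h⁻¹ else g⁻¹) * p.1, !p.2)
      invFun := fun p => ((if p.2 then g⁻¹ else h⁻¹)⁻¹ * p.1, !p.2)
      left_inv := fun p => by rcases p with ⟨z, b⟩; cases b <;> simp
      right_inv := fun p => by rcases p with ⟨z, b⟩; cases b <;> simp }
  refine ⟨Equiv.Perm (H × Bool), inferInstance, ψ, y, fun a b hab => ?_, ?_⟩
  · have := congrArg (fun e : Equiv.Perm (H × Bool) => (e (1, true)).1) hab
    simpa [ψ] using this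
  · ext ⟨z, b⟩ <;> cases b <;> simp [ψ, y, Equiv.Perm.mul_apply, mul_assoc]

variable {X : Type} [DecidableEq X] {ι : Type} [DecidableEq ι]

/-- The two shapes of systems. -/
def Small {G : Type u} (s : Finset ι) (w : ι → List (G ⊕ (X × Bool))) : Prop :=
  (∀ x, ∑ i ∈ s, occ x (w i) ≤ 2) ∨ ∀ i ∈ s, nvar (w i) ≤ 2

/-- Rational independence of the exponent rows. -/
def Indep {G : Type u} (s : Finset ι) (w : ι → List (G ⊕ (X × Bool))) : Prop :=
  ∀ c : ι → ℚ, (∀ x, ∑ i ∈ s, c i * (expo x (w i) : ℚ) = 0) → ∀ i ∈ s, c i = 0

lemma Indep.erase {G : Type u} {s : Finset ι} {w : ι → List (G ⊕ (X × Bool))} (h : Indep s w)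
    {i : ι} (hi : i ∈ s) : Indep (s.erase i) w := by
  intro c hc j hj
  have h' := h (fun k => if k = i then 0 else c k) ?_ j (Finset.mem_of_mem_erase hj)
  · simpa [Finset.ne_of_mem_erase hj] using h'
  · intro x
    rw [← Finset.add_sum_erase s _ hi, if_pos rfl, zero_mul, zero_add]
    refine (Finset.sum_congr rfl fun k hk => ?_).trans (hc x)
    rw [if_neg (Finset.ne_of_mem_erase hk)]

lemma Small.erase {G : Type u} {s : Finset ι} {w : ι → List (G ⊕ (X × Bool))} (h : Small s w)
    (i : ι) : Small (s.erase i) w :=
  h.imp (fun h x => le_trans (Finset.sum_le_sum_of_subset (Finset.erase_subset i s)) (h x))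
    fun h j hj => h j (Finset.mem_of_mem_erase hj)

/-- Every small nonsingular system is solvable. -/
theorem solvable (k : ℕ) : ∀ (G : Type u) [Group G] (s : Finset ι) (w : ι → List (G ⊕ (X × Bool))),
    s.card = k → Small s w → Indep s w →
    ∃ (H : Type u) (_ : Group H) (φ : G →* H) (f : X → H),
      Function.Injective φ ∧ ∀ i ∈ s, eval φ f (w i) = 1 := by
  induction k with
  | zero =>
    intro G _ s w hs _ _
    rw [Finset.card_eq_zero] at hs
    subst hs
    exact ⟨G, inferInstance, MonoidHom.id G, fun _ => 1, Function.injective_id, by simp⟩
  | succ k ih =>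
    intro G _ s w hs hsm hind
    by_cases hone : ∃ i ∈ s, ∃ x, occ x (w i) = 1
    · obtain ⟨i, hi, x, hx⟩ := hone
      obtain ⟨U, V, b, hw, hU⟩ := split_first (x := x) (w := w i) (by omega)
      have hV : occ x V = 0 := by
        rw [hw, occ_append, occ_cons, if_pos rfl] at hx; omega
      set P : Bool → List (G ⊕ (X × Bool)) :=
        fun c => if c = b then winv U ++ winv V else V ++ U with hP
      set w' : ι → List (G ⊕ (X × Bool)) := fun j => subst x P (w j) with hw'
      have hPo : ∀ y c, occ y (P c) = occ y U + occ y V := fun y c => by
        rw [hP]
        simp only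
        split_ifs <;> simp only [occ_append, occ_winv]
        exact add_comm _ _
      have hPn : ∀ c, nvar (P c) = nvar U + nvar V := fun c => by
        rw [hP]
        simp only
        split_ifs <;> simp only [nvar_append, nvar_winv]
        exact add_comm _ _
      have hPe : ∀ y c, expo y (P c) = if c then (if b then -(expo y U + expo y V)
          else expo y U + expo y V) else -(if b then -(expo y U + expo y V)
          else expo y U + expo y V) := fun y c => by
        rw [hP]
        cases c <;> cases b <;> simp [expo_append, expo_winv] <;> ring
      have hcard : (s.erase i).card = k := by rw [Finset.card_erase_of_mem hi, hs]; rfl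
      have hsm' : Small (s.erase i) w' := by
        rcases hsm with h | h
        · refine Or.inl fun y => ?_
          simp only [hw', subst_occ (hPo y)]
          by_cases hy : y = x
          · subst hy; simp [hU, hV]
          · simp only [if_neg hy]
            have hx2 := h x
            have hy2 := h y
            rw [← Finset.add_sum_erase s _ hi] at hx2 hy2
            rw [Finset.sum_add_distrib, ← Finset.mul_sum]
            have e : occ y (w i) = occ y U + occ y V := by
              rw [hw, occ_append, occ_cons, if_neg (Ne.symm hy), zero_add]
            have hle : ∑ j ∈ s.erase i, occ x (w j) ≤ 1 := by omega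
            have := Nat.mul_le_mul_left (occ y U + occ y V) hle
            omega
        · refine Or.inr fun j hj => ?_
          have h1 := subst_nvar (x := x) hPn (w j)
          have h2 := h i hi
          rw [hw, nvar_append, nvar_cons] at h2
          have h3 : (nvar U + nvar V) * occ x (w j) ≤ 1 * occ x (w j) :=
            Nat.mul_le_mul_right _ (by omega)
          have h4 := h j (Finset.mem_of_mem_erase hj)
          simp only [hw']
          omega
      have hind' : Indep (s.erase i) w' := by
        intro c hc
        set e : ℚ := if b then 1 else -1 with he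
        set c' : ι → ℚ := fun j => if j = i then
          -e * ∑ l ∈ s.erase i, c l * (expo x (w l) : ℚ) else c j with hc'
        have hall := hind c' ?_
        · intro j hj
          simpa [hc', Finset.ne_of_mem_erase hj] using hall j (Finset.mem_of_mem_erase hj)
        intro y
        rw [← Finset.add_sum_erase s _ hi]
        have hrest : ∑ j ∈ s.erase i, c' j * (expo y (w j) : ℚ) =
            ∑ j ∈ s.erase i, c j * (expo y (w j) : ℚ) :=
          Finset.sum_congr rfl fun j hj => by simp [hc', Finset.ne_of_mem_erase hj]
        rw [hrest, hc']
        simp only [↓reduceIte]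
        have hy := hc y
        simp only [hw', subst_expo (hPe y)] at hy
        have ei : expo y (w i) = expo y U + (if x = y then (if b then 1 else -1) else 0) + expo y V := by
          rw [hw, expo_append, expo_cons]; ring
        by_cases hyx : y = x
        · subst hyx
          rw [ei, expo_eq_zero hU, expo_eq_zero hV, if_pos rfl, he]
          cases b <;> simp
        · rw [ei, if_neg (Ne.symm hyx)]
          simp only [if_neg hyx] at hy
          push_cast at hy ⊢
          simp only [mul_add, Finset.sum_add_distrib] at hy
          have hfac : ∑ j ∈ s.erase i, c j * ((if b then -((expo y U : ℚ) + expo y V)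
              else (expo y U : ℚ) + expo y V) * (expo x (w j) : ℚ)) =
              (if b then -((expo y U : ℚ) + expo y V) else (expo y U : ℚ) + expo y V) *
                ∑ j ∈ s.erase i, c j * (expo x (w j) : ℚ) := by
            rw [Finset.mul_sum]
            exact Finset.sum_congr rfl fun j _ => by ring
          rw [hfac] at hy
          cases b <;> simp [he] at hy ⊢ <;> linarith
      obtain ⟨H, _, φ, f, hφ, hf⟩ := ih G (s.erase i) w' hcard hsm' hind'
      refine ⟨H, inferInstance, φ, Function.update f x (eval φ f (P true)), hφ, ?_⟩
      have hinv : eval φ f (P false) = (eval φ f (P true))⁻¹ := by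
        rw [hP]
        cases b <;> simp [eval_append, eval_winv]
      intro j hj
      by_cases hji : j = i
      · subst hji
        rw [hw, eval_append, eval_cons, eval_update φ f hU, eval_update φ f hV, hP]
        cases b <;> simp [val, eval_append, eval_winv, mul_assoc]
      · rw [← eval_subst φ f rfl hinv]
        exact hf j (Finset.mem_erase.mpr ⟨hji, hj⟩)
    · push Not at hone
      obtain ⟨i, hi⟩ : s.Nonempty := Finset.card_pos.mp (by omega)
      obtain ⟨x, hxe⟩ : ∃ x, expo x (w i) ≠ 0 := by
        by_contra hcon
        push Not at hcon
        have h := hind (fun j => if j = i then 1 else 0) ?_ i hi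
        · simp at h
        · intro y; simp [hi, hcon y]
      have hxo : occ x (w i) ≠ 0 := fun h => hxe (expo_eq_zero h)
      have hx2 : occ x (w i) = 2 := by
        have := hone i hi x
        rcases hsm with h | h
        · have h' := h x
          rw [← Finset.add_sum_erase s _ hi] at h'
          omega
        · have := (occ_le x (w i)).trans (h i hi); omega
      have hother : ∀ j ∈ s, j ≠ i → occ x (w j) = 0 := by
        intro j hj hji
        rcases hsm with h | h
        · have h' := h x
          rw [← Finset.add_sum_erase s _ hi] at h'
          have := Finset.single_le_sum (f := fun j => occ x (w j)) (fun _ _ => Nat.zero_le _)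
            (Finset.mem_erase.mpr ⟨hji, hj⟩)
          omega
        · by_contra hne
          have hj2 : occ x (w j) = 2 := by
            have := hone j hj x
            have := (occ_le x (w j)).trans (h j hj)
            omega
          have hzero : ∀ l ∈ s, occ x (w l) = 2 → ∀ y, y ≠ x → expo y (w l) = 0 := by
            intro l hl hl2 y hy
            refine expo_eq_zero ?_
            have := (occ_add_le (Ne.symm hy) (w l)).trans (h l hl)
            omega
          have h0 := hind (fun l => if l = i then (expo x (w j) : ℚ) else
            if l = j then -(expo x (w i) : ℚ) else 0) ?_ j hj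
          · simp [hji, hxe] at h0
          intro y
          rw [← Finset.add_sum_erase s _ hi, if_pos rfl, Finset.sum_eq_single j]
          · rw [if_neg hji, if_pos rfl]
            by_cases hy : y = x
            · subst hy; ring
            · rw [hzero i hi hx2 y hy, hzero j hj hj2 y hy]; simp
          · intro l hl hlj
            simp [Finset.ne_of_mem_erase hl, hlj]
          · exact fun hn => absurd (Finset.mem_erase.mpr ⟨hji, hj⟩) hn
      obtain ⟨U, R, b, hw, hU⟩ := split_first (x := x) (w := w i) hxo
      have hR : occ x R = 1 := by
        rw [hw, occ_append, occ_cons, if_pos rfl] at hx2; omega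
      obtain ⟨V, W, b', hR', hV⟩ := split_first (x := x) (w := R) (by omega)
      have hW : occ x W = 0 := by
        rw [hR', occ_append, occ_cons, if_pos rfl] at hR; omega
      have hbb : b' = b := by
        rw [hw, hR', expo_append, expo_cons, expo_append, expo_cons, expo_eq_zero hU,
          expo_eq_zero hV, expo_eq_zero hW] at hxe
        cases b <;> cases b' <;> simp at hxe ⊢
      subst hbb
      obtain ⟨H, _, φ, f, hφ, hf⟩ := ih G (s.erase i) w
        (by rw [Finset.card_erase_of_mem hi, hs]; rfl) (hsm.erase i) (hind.erase hi)
      obtain ⟨H', _, ψ, y, hψ, hy⟩ :=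
        exists_square_root (eval φ f V) (eval φ f W * eval φ f U)
      refine ⟨H', inferInstance, ψ.comp φ,
        Function.update (ψ ∘ f) x (if b' then y else y⁻¹), hψ.comp hφ, ?_⟩
      intro j hj
      by_cases hji : j = i
      · subst hji
        rw [hw, hR', eval_append, eval_cons, eval_append, eval_cons, eval_update _ _ hU,
          eval_update _ _ hV, eval_update _ _ hW, ← map_eval, ← map_eval, ← map_eval]
        have hv : val (ψ.comp φ) (Function.update (ψ ∘ f) x (if b' then y else y⁻¹))
            (Sum.inr (x, b')) = y := by cases b' <;> simp [val]
        rw [hv]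
        rw [map_mul, ← mul_assoc] at hy
        have := congrArg (fun z => ψ (eval φ f U) * z * (ψ (eval φ f U))⁻¹) hy
        simpa [mul_assoc] using this
      · rw [eval_update _ _ (hother j hj hji), ← map_eval,
          hf j (Finset.mem_erase.mpr ⟨hji, hj⟩), map_one]

end Vale.Agent.P174
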