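import Mathlib

/-!
P174: words with coefficients in a group, their values, exponent sums and occurrence counts.
-/

namespace Vale.Agent.P174

universe u v

variable {G : Type u} [Group G] {X : Type} [DecidableEq X] {H : Type v} [Group H]

/-- The value of a letter: a coefficient, or an unknown or its inverse. -/
def val (φ : G →* H) (f : X → H) : G ⊕ (X × Bool) → H
  | .inl g => φ g
  | .inr (x, b) => if b then f x else (f x)⁻¹

/-- The value of a word. -/
def eval (φ : G →* H) (f : X → H) (w : List (G ⊕ (X × Bool))) : H := (w.map (val φ f)).prod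

/-- Number of occurrences of an unknown. -/
def occ (x : X) (w : List (G ⊕ (X × Bool))) : ℕ :=
  (w.map fun l => match l with
    | .inl _ => 0
    | .inr (y, _) => if y = x then 1 else 0).sum

/-- Number of occurrences of all unknowns. -/
def nvar (w : List (G ⊕ (X × Bool))) : ℕ :=
  (w.map fun l => match l with
    | .inl _ => 0
    | .inr _ => 1).sum

/-- The exponent sum of an unknown. -/
def expo (x : X) (w : List (G ⊕ (X × Bool))) : ℤ :=
  (w.map fun l => match l with
    | .inl _ => 0
    | .inr (y, b) => if y = x then (if b then 1 else -1) else 0).sum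

omit [DecidableEq X] in
lemma eval_append (φ : G →* H) (f : X → H) (u w : List (G ⊕ (X × Bool))) :
    eval φ f (u ++ w) = eval φ f u * eval φ f w := by
  simp [eval]

omit [DecidableEq X] in
lemma eval_cons (φ : G →* H) (f : X → H) (l : G ⊕ (X × Bool)) (w : List (G ⊕ (X × Bool))) :
    eval φ f (l :: w) = val φ f l * eval φ f w := by
  simp [eval]

omit [DecidableEq X] in
lemma map_eval {K : Type*} [Group K] (ψ : H →* K) (φ : G →* H) (f : X → H)
    (w : List (G ⊕ (X × Bool))) : ψ (eval φ f w) = eval (ψ.comp φ) (ψ ∘ f) w := by
  induction w with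
  | nil => simp [eval]
  | cons l w ih =>
    rw [eval_cons, eval_cons, map_mul, ih]
    rcases l with g | ⟨x, b⟩
    · rfl
    · cases b <;> simp [val]

lemma occ_append (x : X) (u w : List (G ⊕ (X × Bool))) : occ x (u ++ w) = occ x u + occ x w := by
  simp [occ]

lemma expo_append (x : X) (u w : List (G ⊕ (X × Bool))) :
    expo x (u ++ w) = expo x u + expo x w := by
  simp [expo]

omit [DecidableEq X] in
lemma nvar_append (u w : List (G ⊕ (X × Bool))) : nvar (u ++ w) = nvar u + nvar w := by
  simp [nvar]

lemma occ_cons (x y : X) (b : Bool) (w : List (G ⊕ (X × Bool))) :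
    occ x (.inr (y, b) :: w) = (if y = x then 1 else 0) + occ x w := by
  simp [occ]

lemma expo_cons (x y : X) (b : Bool) (w : List (G ⊕ (X × Bool))) :
    expo x (.inr (y, b) :: w) = (if y = x then (if b then 1 else -1) else 0) + expo x w := by
  simp [expo]

omit [DecidableEq X] in
lemma nvar_cons (y : X) (b : Bool) (w : List (G ⊕ (X × Bool))) :
    nvar (.inr (y, b) :: w) = 1 + nvar w := by
  simp [nvar]

lemma occ_add_le {x y : X} (h : x ≠ y) (w : List (G ⊕ (X × Bool))) :
    occ x w + occ y w ≤ nvar w := by
  induction w with
  | nil => simp [occ, nvar]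
  | cons l w ih =>
    rcases l with g | ⟨z, b⟩
    · simpa [occ, nvar] using ih
    · rw [occ_cons, occ_cons, nvar_cons]
      split_ifs with h1 h2
      · exact absurd (h1.symm.trans h2) h
      all_goals omega

lemma occ_le (x : X) (w : List (G ⊕ (X × Bool))) : occ x w ≤ nvar w := by
  induction w with
  | nil => simp [occ, nvar]
  | cons l w ih =>
    rcases l with g | ⟨z, b⟩
    · simpa [occ, nvar] using ih
    · rw [occ_cons, nvar_cons]
      split_ifs <;> omega

lemma expo_eq_zero {x : X} {w : List (G ⊕ (X × Bool))} (h : occ x w = 0) : expo x w = 0 := by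
  induction w with
  | nil => simp [expo]
  | cons l w ih =>
    rcases l with g | ⟨z, b⟩
    · simpa [occ, expo] using ih (by simpa [occ] using h)
    · rw [occ_cons] at h
      split_ifs at h with hz
      · omega
      · rw [expo_cons, if_neg hz, ih (by omega), add_zero]

lemma eval_congr (φ : G →* H) {f g : X → H} {w : List (G ⊕ (X × Bool))}
    (h : ∀ x, occ x w ≠ 0 → f x = g x) : eval φ f w = eval φ g w := by
  induction w with
  | nil => rfl
  | cons l w ih =>
    rw [eval_cons, eval_cons, ih]
    · congr 1
      rcases l with c | ⟨z, b⟩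
      · rfl
      · rw [val, val, h z]
        rw [occ_cons, if_pos rfl]
        omega
    · intro x hx
      refine h x ?_
      rcases l with c | ⟨z, b⟩
      · simpa [occ] using hx
      · rw [occ_cons]; omega

lemma eval_update (φ : G →* H) (f : X → H) {x : X} {c : H} {w : List (G ⊕ (X × Bool))}
    (h : occ x w = 0) : eval φ (Function.update f x c) w = eval φ f w :=
  eval_congr φ fun y hy => Function.update_of_ne (fun e => hy (e ▸ h)) _ _

/-- The first occurrence of an unknown splits the word. -/
lemma split_first {x : X} : ∀ {w : List (G ⊕ (X × Bool))}, occ x w ≠ 0 →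
    ∃ U V b, w = U ++ .inr (x, b) :: V ∧ occ x U = 0
  | [], h => by simp [occ] at h
  | .inl g :: w, h => by
    obtain ⟨U, V, b, rfl, hU⟩ := split_first (x := x) (w := w) (by simpa [occ] using h)
    exact ⟨.inl g :: U, V, b, rfl, by simpa [occ] using hU⟩
  | .inr (y, c) :: w, h => by
    by_cases hy : y = x
    · exact ⟨[], w, c, by rw [hy]; rfl, by simp [occ]⟩
    · rw [occ_cons, if_neg hy, zero_add] at h
      obtain ⟨U, V, b, rfl, hU⟩ := split_first (x := x) (w := w) h
      exact ⟨.inr (y, c) :: U, V, b, rfl, by rw [occ_cons, if_neg hy, hU]⟩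

/-- The inverse word. -/
def winv (w : List (G ⊕ (X × Bool))) : List (G ⊕ (X × Bool)) :=
  w.reverse.map fun l => match l with
    | .inl g => .inl g⁻¹
    | .inr (x, b) => .inr (x, !b)

omit [DecidableEq X] in
lemma eval_winv (φ : G →* H) (f : X → H) (w : List (G ⊕ (X × Bool))) :
    eval φ f (winv w) = (eval φ f w)⁻¹ := by
  induction w with
  | nil => simp [eval, winv]
  | cons l w ih =>
    rw [eval_cons, mul_inv_rev, ← ih]
    rcases l with g | ⟨x, b⟩
    · simp [eval, winv, val]
    · cases b <;> simp [eval, winv, val]

lemma occ_winv (x : X) (w : List (G ⊕ (X × Bool))) : occ x (winv w) = occ x w := by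
  induction w with
  | nil => rfl
  | cons l w ih =>
    rcases l with g | ⟨y, b⟩ <;> simp [occ, winv] at ih ⊢ <;> omega

omit [DecidableEq X] in
lemma nvar_winv (w : List (G ⊕ (X × Bool))) : nvar (winv w) = nvar w := by
  induction w with
  | nil => rfl
  | cons l w ih =>
    rcases l with g | ⟨y, b⟩ <;> simp [nvar, winv] at ih ⊢ <;> omega

lemma expo_winv (x : X) (w : List (G ⊕ (X × Bool))) : expo x (winv w) = -expo x w := by
  induction w with
  | nil => rfl
  | cons l w ih =>
    rcases l with g | ⟨y, b⟩
    · simp [expo, winv] at ih ⊢
      linarith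
    · cases b <;> simp [expo, winv] at ih ⊢ <;> split_ifs <;> linarith

/-- Replace the unknown `x` and its inverse by two given words. -/
def subst (x : X) (P : Bool → List (G ⊕ (X × Bool))) (w : List (G ⊕ (X × Bool))) :
    List (G ⊕ (X × Bool)) :=
  w.flatMap fun l => match l with
    | .inl g => [.inl g]
    | .inr (y, b) => if y = x then P b else [.inr (y, b)]

lemma eval_subst (φ : G →* H) (f : X → H) {x : X} {c : H}
    {P : Bool → List (G ⊕ (X × Bool))} (h1 : eval φ f (P true) = c)
    (h2 : eval φ f (P false) = c⁻¹) (w : List (G ⊕ (X × Bool))) :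
    eval φ f (subst x P w) = eval φ (Function.update f x c) w := by
  induction w with
  | nil => rfl
  | cons l w ih =>
    rw [subst, List.flatMap_cons, eval_append, ← subst, ih, eval_cons]
    congr 1
    rcases l with g | ⟨y, b⟩
    · simp [eval, val]
    · by_cases hy : y = x
      · subst hy
        cases b <;> simp [val, h1, h2]
      · simp [hy, eval, val]

lemma subst_occ {x y : X} {P : Bool → List (G ⊕ (X × Bool))} {k : ℕ}
    (hP : ∀ b, occ y (P b) = k) (w : List (G ⊕ (X × Bool))) :
    occ y (subst x P w) = (if y = x then 0 else occ y w) + k * occ x w := by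
  induction w with
  | nil => simp [subst, occ]
  | cons l w ih =>
    rw [subst, List.flatMap_cons, occ_append, ← subst, ih]
    rcases l with g | ⟨z, b⟩
    · simp [occ]
    · rw [occ_cons, occ_cons]
      by_cases hz : z = x
      · subst hz
        simp only [↓reduceIte, hP]
        by_cases hy : y = z
        · simp only [if_pos hy]; ring
        · simp only [if_neg hy, if_neg (Ne.symm hy)]; ring
      · simp only [if_neg hz, occ_cons]
        by_cases hy : y = x
        · subst hy; simp [occ, hz]
        · simp only [if_neg hy]
          simp only [occ, List.map_nil, List.sum_nil]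
          ring

lemma subst_nvar {x : X} {P : Bool → List (G ⊕ (X × Bool))} {k : ℕ}
    (hP : ∀ b, nvar (P b) = k) (w : List (G ⊕ (X × Bool))) :
    nvar (subst x P w) + occ x w = nvar w + k * occ x w := by
  induction w with
  | nil => simp [subst, occ, nvar]
  | cons l w ih =>
    rw [subst, List.flatMap_cons, nvar_append, ← subst]
    rcases l with g | ⟨z, b⟩
    · simpa [occ, nvar] using ih
    · rw [occ_cons, nvar_cons]
      by_cases hz : z = x
      · subst hz
        simp only [↓reduceIte, hP]
        rw [Nat.mul_add, mul_one]
        omega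
      · simp only [if_neg hz, nvar_cons]
        simp [nvar] at ih ⊢
        omega

lemma subst_expo {x y : X} {P : Bool → List (G ⊕ (X × Bool))} {k : ℤ}
    (hP : ∀ b, expo y (P b) = if b then k else -k) (w : List (G ⊕ (X × Bool))) :
    expo y (subst x P w) = (if y = x then 0 else expo y w) + k * expo x w := by
  induction w with
  | nil => simp [subst, expo]
  | cons l w ih =>
    rw [subst, List.flatMap_cons, expo_append, ← subst, ih]
    rcases l with g | ⟨z, b⟩
    · simp [expo]
    · rw [expo_cons, expo_cons]
      by_cases hz : z = x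
      · subst hz
        simp only [↓reduceIte, hP]
        by_cases hy : y = z
        · simp only [if_pos hy]; cases b <;> simp <;> ring
        · simp only [if_neg hy, if_neg (Ne.symm hy)]; cases b <;> simp <;> ring
      · simp only [if_neg hz, expo_cons]
        by_cases hy : y = x
        · subst hy; simp [expo, hz]
        · simp only [if_neg hy]
          simp only [expo, List.map_nil, List.sum_nil]
          ring

end Vale.Agent.P174
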